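import Vale.Agent.P129BM.Defs
import Vale.Agent.P129BZ.DualHB

/-!
# A normalised functional which vanishes where a sequence is bounded
-/

set_option linter.unusedSectionVars false

namespace Vale.Agent.P129B

universe v

variable {N : Type v} [ZM N]
  {R : Type*} [Field R] [LinearOrder R] [IsStrictOrderedRing R] [Coded N R] [RF N R]
  {K : Type*} [Field K] [Algebra R K] [Nm K R] [KA R K] [Coded N K] [KF N R K]
  {E : Type*} [AddCommGroup E] [Module K E] [Nm E R] [NA R K E] [Coded N E] [NS N R K E]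

theorem Bd.zero (g : NN N → Dual N K E) : Bd g 0 :=
  ⟨0, fun k => by rw [map_zero, nm_zero]⟩

theorem Bd.add {g : NN N → Dual N K E} {x y : E} (hx : Bd g x) (hy : Bd g y) : Bd g (x + y) := by
  obtain ⟨c, hc⟩ := hx
  obtain ⟨d, hd⟩ := hy
  refine ⟨c + d, fun k => ?_⟩
  rw [map_add]
  exact (nm_add_le _ _).trans (add_le_add (hc k) (hd k))

theorem Bd.smul {g : NN N → Dual N K E} {x : E} (hx : Bd g x) (a : K) : Bd g (a • x) := by
  obtain ⟨c, hc⟩ := hx
  refine ⟨nm a * c, fun k => ?_⟩
  rw [Dual.smul_arg, KA.nm_mul]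
  exact mul_le_mul_of_nonneg_left (hc k) (nm_nonneg a)

/-- The points at which an internal sequence is bounded form an internal subspace. -/
theorem isISub_bd (g : NN N → Dual N K E) [Intl N g] : IsISub N K {x : E | Bd g x} :=
  ⟨intl_setOfT (by fun_prop), Bd.zero g, fun _ hx _ hy => Bd.add hx hy,
    fun a _ hx => Bd.smul hx a⟩

/-- **A normalised functional which vanishes where `g` is bounded.** -/
theorem nullf (g : NN N → Dual N K E) [Intl N g] (h : ¬ Dns (Bd g)) :
    ∃ φ : Dual N K E, nm φ = 1 ∧ ∀ x, Bd g x → φ x = 0 := by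
  unfold Dns at h
  push Not at h
  obtain ⟨x₀, ε, hε, h⟩ := h
  exact exists_dual_null (isISub_bd g) hε h

end Vale.Agent.P129B
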