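import Vale.Agent.P129BM.Spec
import Vale.Agent.P129BG.NullF
import Vale.Agent.P129BU.Kit
import Vale.Agent.P129B64.Dl
import Vale.Agent.P129BI.UnbD
import Vale.Agent.P129BE.Dual
import Vale.Agent.P129BF.L2D

/-!
# Sequences of functionals with a lower estimate by the sum of the moduli
-/

set_option linter.unusedSectionVars false

namespace Vale.Agent.P129B

universe v

variable {N : Type v} [ZM N]
  {R : Type*} [Field R] [LinearOrder R] [IsStrictOrderedRing R] [Coded N R] [RF N R]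
  {K : Type*} [Field K] [Algebra R K] [Nm K R] [KA R K] [Coded N K] [KF N R K]
  {E : Type*} [AddCommGroup E] [Module K E] [Nm E R] [NA R K E] [Coded N E] [NS N R K E]

namespace G98

/-- A sequence bounded below whose weighted form is bounded on a dense set. -/
theorem absSQ_of_dns [Cpl N R E] (φ : NN N → Dual N K E) [Intl N φ] {c : R} (hc : 0 < c)
    (h : ∀ k, c ≤ nm (φ k)) (hd : Dns (Bd (wt φ))) : AbsSQ N K E :=
  BI.unb_dual (wt φ) (BI.unb_of_le φ hc h) hd

/-- The first alternative: all points are small on the tails. -/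
theorem absSQ_of_alpha [Cpl N R E] (φ : NN N → Dual N K E) [Intl N φ] {c : R} (hc : 0 < c)
    (h : ∀ k, c ≤ nm (φ k)) (H : HasH φ) (hT : ∀ (x : E) (ε : R), 0 < ε → ∃ n, Ta φ n x ε) :
    AbsSQ N K E :=
  absSQ_of_dns φ hc h (alpha_dual φ (fun n a η ha hη => H n a ha η hη) hT)

theorem le_nm_of_lo2 {φ : NN N → Dual N K E} [Intl N φ] {c : R} (h : Lo2 φ c) (k : NN N) :
    c ≤ nm (φ k) := by
  classical
  have ha : DefF N (fun i : NN N => if i = k then (1 : K) else 0) := by fun_prop
  have h1 := h (k + 1) _ ha.toIntl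
  rw [cmb_single ha (by fun_prop) (NN.lt_add_one k) (fun i _ hi => if_neg hi),
    isum_single (j := k) (by fun_prop) (NN.lt_add_one k) (fun i _ hi => by simp [hi])] at h1
  simp only [if_true, one_smul, KA.nm_one, one_pow, mul_one] at h1
  exact (abs_le_of_sq_le_sq' h1 (nm_nonneg _)).2

/-- The second alternative: Euclidean estimates. -/
theorem absSQ_of_l2 [Cpl N R E] (φ : NN N → Dual N K E) [Intl N φ] {c : R} (hc : 0 < c)
    (h1 : Up2 φ) (h2 : Lo2 φ c) : AbsSQ N K E :=
  absSQ_of_dns φ hc (le_nm_of_lo2 h2) (l2d_dual φ hc h1 h2)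

theorem le_nm_of_inK {f : NN N → Dual N K E} {c : R} (h : Lo1 f c) {n m : NN N}
    {u : Dual N K E} (hu : InK f n m (1 : R) u) : c ≤ nm u := by
  obtain ⟨b, hb, -, -, h3, rfl⟩ := hu
  have := h m b hb
  rwa [h3, mul_one] at this

theorem nul_of_oscLe {g : NN N → Dual N K E} (h : ∀ r : R, 0 < r → OscLe g r) (x : E) :
    Nul g x := by
  intro ε hε
  have h0 : 0 < nm x + 1 := by linarith [nm_nonneg x]
  have h1 : nm (algebraMap R K (nm x + 1)⁻¹ • x) ≤ 1 := by
    rw [nm_ofR_smul_of_nonneg (inv_nonneg.2 h0.le), inv_mul_le_iff₀ h0]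
    linarith
  obtain ⟨n, hn⟩ := h (ε / (nm x + 1)) (div_pos hε h0) _ h1
  refine ⟨n, fun k hk => ?_⟩
  have h2 := hn k hk
  rw [Dual.smul_arg, KA.nm_mul, KA.nm_ofR_of_nonneg (inv_nonneg.2 h0.le), div_eq_inv_mul] at h2
  exact le_of_mul_le_mul_left h2 (inv_pos.2 h0)

/-- The case of a pointwise null sequence of normalised combinations. -/
theorem absSQ_of_null [Cpl N R E] (f g : NN N → Dual N K E) [Intl N f] [Intl N g] (H : HasH f)
    {c : R} (hc : 0 < c) (hl : Lo1 f c) (hAd : Ad f g) (h : ∀ x, Nul g x) : AbsSQ N K E := by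
  obtain ⟨s, hs, -, hs'⟩ := exists_intl_seq (N := N) (β := NN N × NN N) (Inv := fun _ _ => True)
    (R := fun _ s t => s.1 < t.1 ∧ s.2 ≤ t.2 ∧ InK f s.2 t.2 (1 : R) (g t.1))
    (by fun_prop) (by fun_prop) (0, 0) trivial
    (fun k s _ _ => by
      obtain ⟨n, M, h1⟩ := Stb.block_step (IK := fun n M u => InK f n M (1 : R) u) hAd s.1 s.2
      exact ⟨(n, M), inferInstance, trivial, h1⟩)
  have hv : DefF N (fun k => g (s (k + 1)).1) := by fun_prop
  have hvI := hv.toIntl
  have hM : DefF N (fun k => (s k).2) := by fun_prop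
  have hl' : Lo1 (fun k => g (s (k + 1)).1) c :=
    B64.LO.block (f := f) (by fun_prop) hv hM hl (fun k => (hs' k).2.2.1) fun k => (hs' k).2.2.2
  have H' : B64.HH (fun (u : Dual N K E) (x : E) => u x) (fun k => g (s (k + 1)).1) :=
    B64.HH.block B64.pr_dual (φ := f) (by fun_prop) hv hM (fun n a η ha hη => H n a ha η hη)
      (fun k => (hs' k).2.2.1) fun k => by
        obtain ⟨b, h0, h1, h2, -, h4⟩ := (hs' k).2.2.2
        exact ⟨b, h0, h1, h2, h4⟩
  have hge : ∀ k, k ≤ (s k).1 := fun k =>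
    NN.ind (P := fun k => k ≤ (s k).1) (by fun_prop) (NN.zero_le' _)
      (fun k ih => NN.add_one_le_iff.2 (ih.trans_lt (hs' k).2.1)) k
  refine absSQ_of_alpha _ hc (fun k => le_nm_of_inK hl (hs' k).2.2.2)
    (fun n a ha η hη => H' n a η ha hη) fun x ε hε => ?_
  refine B64.TA.of_null B64.pr_dual hv hc hl' (fun η hη => ?_) hε
  obtain ⟨n, hn⟩ := h x η hη
  exact ⟨n, fun k hk => hn _ ((hk.trans (NN.lt_add_one k).le).trans (hge (k + 1)))⟩

end G98

/-- **Sequences with the property `HasH` and a lower estimate give separable quotients**, from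
the tree and the construction of Euclidean sequences. -/
theorem G98.lone [Cpl N R E] (hT : TREE N R K E) (hS : STAR N R K E) : LONE N R K E := by
  intro f c hfI hf H hc hl
  obtain ⟨g, hg, hg1, hg2⟩ := Stb.exists_stable_ik (N := N) (K := K)
    (fun (u : Dual N K E) (x : E) => u x) (by fun_prop) (fun u x => Dual.le_opNorm u x) f hf
  have hAd : Ad f g :=
    Stb.ad_of_forall (IK := fun n M u => Stb.IK K f n M (1 : R) u)
      (fun _ _ _ _ h k => k.mono h le_rfl) hg1
  have hgn : ∀ n, nm (g n) ≤ 1 := fun n => by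
    obtain ⟨M, -, hM⟩ := hg1 n
    exact hM.nm_le hf
  by_cases h : ∀ r : R, 0 < r → OscLe g r
  · exact G98.absSQ_of_null f g H hc hl hAd (G98.nul_of_oscLe h)
  · push Not at h
    obtain ⟨r₀, hr₀, h0⟩ := h
    obtain ⟨δ, x, hδ, hx, hQ⟩ := hT f g r₀ hfI hg hf hAd hg2 hr₀ h0
    obtain ⟨φ, hφ, h1, h2⟩ := hS δ x hδ hx (fun i => (hQ (i + 1)).1 i (NN.lt_add_one i))
      fun n ε hI hε => by
        obtain ⟨j, -, hj⟩ := (hQ n).2 ε hI hε 0
        exact ⟨g j, hgn j, hj⟩
    exact G98.absSQ_of_l2 φ (by positivity) h1 h2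

theorem G98.nullf_row : NULLF N R K E := fun g _ h => nullf g h

theorem G98.unb_row [Cpl N R E] : UNB N R K E := fun g _ h1 h2 => BI.unb_dual g h1 h2

theorem G98.alpha_row [Cpl N R E] : ALPHA N R K E := fun φ _ H hT =>
  alpha_dual φ (fun n a η ha hη => H n a ha η hη) hT

theorem G98.beta_row : BETA N R K E := fun φ _ _ _ H hδ hT => by
  obtain ⟨u, c, h1, h2, h3, h4, h5⟩ := B64.HH.beta B64.pr_dual (φ := φ) (by fun_prop)
    (fun n a η ha hη => H n a ha η hη) hδ hT
  exact ⟨u, c, h1, h2, fun n a ha η hη => h3 n a η ha hη, h4, h5⟩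

/-- **Normalised sequences with the property `HasH` give separable quotients**, from the tree
and the construction of Euclidean sequences. -/
theorem G98.hash_row [Cpl N R E] (hT : TREE N R K E) (hS : STAR N R K E) : HASH N R K E :=
  hash (unbw G98.unb_row) G98.alpha_row G98.beta_row (G98.lone hT hS)

end Vale.Agent.P129B
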